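import Vale.Agent.N176.Main

/-!
# P176: the finitistic dimension conjecture is false over every field and for finite rings
-/

open CategoryTheory

universe u

theorem Vale.Agent.Results.P176.A0EveryField.result :
    (∀ (K : Type u) [Field K], ∃ (A : Type u) (_ : Ring A) (_ : Algebra K A),
      FiniteDimensional K A ∧ Nonempty (A ≃ₐ[K] Aᵐᵒᵖ) ∧
      ∀ n : ℕ, ∃ N : ModuleCat.{u} A, Module.Finite A N ∧ projectiveDimension N = n) ∧
    (∀ (R : Type u) [CommRing R] [IsArtinianRing R] [Nontrivial R],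
      ∃ (A : Type u) (_ : Ring A) (_ : Algebra R A), Module.Finite R A ∧
      Function.Injective (algebraMap R A) ∧
      ∀ n : ℕ, ∃ N : ModuleCat.{u} A, Module.Finite A N ∧ projectiveDimension N = n) ∧
    ∀ m : ℕ, 2 ≤ m → ∃ (A : Type u) (_ : Ring A), Finite A ∧ CharP A m ∧
      ∀ n : ℕ, ∃ N : ModuleCat.{u} A, Finite N ∧ projectiveDimension N = n :=
  ⟨Vale.Agent.N176.field_all, Vale.Agent.N176.artin_all, Vale.Agent.N176.finite_all⟩
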